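import Vale.Agent.P011UGB4.Defs

/-!
Anisotropic hermitian forms in two variables over quaternion algebras.
-/

namespace Vale.Agent.P011UGB7

open Matrix Module Vale.Agent.P011L Vale.Agent.P011UGB4
open scoped Quaternion

variable {k : Type} [Field k] {a b c : k}

/-- The matrices. -/
abbrev MQ (a b : k) : Type := Matrix (Fin 2) (Fin 2) ℍ[k,a,0,b]

theorem hc_mul (h : c ≠ 0) : Hc a 0 b c⁻¹ * Hc a 0 b c = 1 := by
  rw [Hc, Hc, diagonal_mul_diagonal, ← diagonal_one]
  congr 1
  funext i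
  fin_cases i
  · exact (map_mul _ _ _).symm.trans (by rw [inv_mul_cancel₀ h, map_one])
  · exact mul_one _

theorem hc_mul' (h : c ≠ 0) : Hc a 0 b c * Hc a 0 b c⁻¹ = 1 := by
  simpa using hc_mul (a := a) (b := b) (inv_ne_zero h)

theorem hc_st : (Hc a 0 b c)ᴴ = Hc a 0 b c := by
  rw [Hc, diagonal_conjTranspose]
  congr 1
  funext i
  fin_cases i
  · exact QuaternionAlgebra.star_coe _
  · exact star_one _

/-- The adjoint involution. -/
def st (a b c : k) : MQ a b →ₗ[k] MQ a b where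
  toFun m := Hc a 0 b c⁻¹ * mᴴ * Hc a 0 b c
  map_add' m n := by rw [conjTranspose_add, Matrix.mul_add, Matrix.add_mul]
  map_smul' t m := by
    rw [show (t • m)ᴴ = t • mᴴ from Matrix.ext fun i j => QuaternionAlgebra.star_smul' _ _,
      Matrix.mul_smul, Matrix.smul_mul, RingHom.id_apply]

theorem st_def (m : MQ a b) : st a b c m = Hc a 0 b c⁻¹ * mᴴ * Hc a 0 b c := rfl

theorem st_eq (h : c ≠ 0) (m : MQ a b) :
    st a b c m = !![star (m 0 0), c⁻¹ • star (m 1 0); c • star (m 0 1), star (m 1 1)] := by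
  refine Matrix.ext fun i j => ?_
  rw [st_def, Hc, Hc, mul_diagonal, diagonal_mul, conjTranspose_apply]
  fin_cases i <;> fin_cases j <;>
    simp [QuaternionAlgebra.coe_mul_eq_smul, QuaternionAlgebra.mul_coe_eq_smul, smul_smul, h]

theorem st_mul (h : c ≠ 0) (m n : MQ a b) : st a b c (m * n) = st a b c n * st a b c m := by
  simp only [st_def, conjTranspose_mul, Matrix.mul_assoc]
  rw [← Matrix.mul_assoc (Hc a 0 b c), hc_mul' h, Matrix.one_mul]

theorem st_st (h : c ≠ 0) (m : MQ a b) : st a b c (st a b c m) = m := by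
  simp only [st_def, conjTranspose_mul, conjTranspose_conjTranspose, hc_st, Matrix.mul_assoc]
  rw [hc_mul h, Matrix.mul_one, ← Matrix.mul_assoc, hc_mul h, Matrix.one_mul]

/-- The symmetric matrices of trace zero. -/
def ph (a b c : k) : k × ℍ[k,a,0,b] →ₗ[k] MQ a b where
  toFun p := !![(p.1 : ℍ[k,a,0,b]), c⁻¹ • star p.2; p.2, -(p.1 : ℍ[k,a,0,b])]
  map_add' p q := by
    refine Matrix.ext fun i j => ?_
    fin_cases i <;> fin_cases j <;> simp [add_comm]
  map_smul' t p := by
    refine Matrix.ext fun i j => ?_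
    fin_cases i <;> fin_cases j <;> ext <;> simp [mul_left_comm]

theorem ph_def (x : k) (y : ℍ[k,a,0,b]) :
    ph a b c (x, y) = !![(x : ℍ[k,a,0,b]), c⁻¹ • star y; y, -(x : ℍ[k,a,0,b])] := rfl

/-- Half of the reduced trace. -/
def tr (m : MQ a b) : k := (m 0 0).re + (m 1 1).re

theorem tr_comm (m n : MQ a b) : tr (m * n) = tr (n * m) := by
  simp only [tr, mul_apply, Fin.sum_univ_two, QuaternionAlgebra.re_add, QuaternionAlgebra.re_mul]
  ring

theorem mem_ph [CharZero k] (h : c ≠ 0) {m : MQ a b} :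
    m ∈ LinearMap.range (ph a b c) ↔ st a b c m = m ∧ tr m = 0 := by
  rw [st_eq h]
  constructor
  · rintro ⟨⟨x, y⟩, rfl⟩
    refine ⟨Matrix.ext fun i j => ?_, by simp [tr, ph_def]⟩
    fin_cases i <;> fin_cases j <;> ext <;> simp [ph_def, h]
  · rintro ⟨e, t⟩
    have e0 := QuaternionAlgebra.star_eq_self.1 (show star (m 0 0) = _ from congrFun₂ e 0 0)
    have e1 := QuaternionAlgebra.star_eq_self.1 (show star (m 1 1) = _ from congrFun₂ e 1 1)
    refine ⟨((m 0 0).re, m 1 0), Matrix.ext fun i j => ?_⟩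
    fin_cases i <;> fin_cases j
    · exact e0.symm
    · exact congrFun₂ e 0 1
    · rfl
    · refine Eq.trans ?_ e1.symm
      rw [← neg_eq_of_add_eq_zero_right t, QuaternionAlgebra.coe_neg]
      rfl

theorem central [CharZero k] (ha : a ≠ 0) {p : ℍ[k,a,0,b]}
    (h : ∀ y, p * y = y * p) : p = p.re := by
  have i := QuaternionAlgebra.ext_iff.1 (h ⟨0, 1, 0, 0⟩)
  have j := QuaternionAlgebra.ext_iff.1 (h ⟨0, 0, 1, 0⟩)
  simp only [QuaternionAlgebra.re_mul, QuaternionAlgebra.imI_mul, QuaternionAlgebra.imJ_mul,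
    QuaternionAlgebra.imK_mul] at i j
  ext
  · rfl
  · exact show p.imI = 0 by linear_combination j.2.2.2 / 2
  · exact show p.imJ = 0 by linear_combination -i.2.2.2 / 2
  · exact show p.imK = 0 from (mul_eq_zero.1 (show a * p.imK = 0 by
      linear_combination -i.2.2.1 / 2)).resolve_left ha

theorem ent {m n : MQ a b} (e : m = n) (i j : Fin 2) : m i j = n i j := by rw [e]

theorem ph_sq (x : k) (y : ℍ[k,a,0,b]) : ph a b c (x, y) * ph a b c (x, y) =
    algebraMap k (MQ a b) (x * x + c⁻¹ * (star y * y).re) := by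
  refine Matrix.ext fun i j => ?_
  rw [algebraMap_matrix_apply, mul_apply, Fin.sum_univ_two, ph_def]
  fin_cases i <;> fin_cases j <;> ext <;> simp [-mul_eq_zero] <;> ring

theorem st_ani (h : c ≠ 0)
    (an : ∀ x y : ℍ[k,a,0,b], algebraMap k _ c * (star x * x) + star y * y = 0 → x = 0 ∧ y = 0)
    (m : MQ a b) (e : st a b c m * m = 0) : m = 0 := by
  have u : mᴴ * Hc a 0 b c * m = 0 := by
    have := congrArg (Hc a 0 b c * ·) e
    simpa only [st_def, ← Matrix.mul_assoc, hc_mul' h, Matrix.one_mul, Matrix.mul_zero] using this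
  have z : ∀ j, m 0 j = 0 ∧ m 1 j = 0 := fun j => an _ _ (by
    have := ent u j j
    rw [mul_apply, Fin.sum_univ_two, Hc, mul_diagonal, mul_diagonal] at this
    rw [← mul_assoc, Algebra.commutes]
    simpa using this)
  refine Matrix.ext fun i j => ?_
  fin_cases i
  exacts [(z j).1, (z j).2]

theorem ph_cen [CharZero k] (ha : a ≠ 0) (m : MQ a b)
    (e : ∀ w ∈ LinearMap.range (ph a b c), m * w = w * m) : ∃ t, m = algebraMap k _ t := by
  have d := ent (e _ ⟨(1, 0), rfl⟩)
  have n : ∀ q : ℍ[k,a,0,b], -q = q → q = 0 := fun q u => by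
    have := QuaternionAlgebra.ext_iff.1 u
    ext
    exacts [neg_eq_self.1 this.1, neg_eq_self.1 this.2.1, neg_eq_self.1 this.2.2.1,
      neg_eq_self.1 this.2.2.2]
  have d1 : m 0 1 = 0 := n _ (by simpa [ph_def, mul_apply] using d 0 1)
  have d2 : m 1 0 = 0 := n _ (by simpa [ph_def, mul_apply] using (d 1 0).symm)
  have f : ∀ y, m 1 1 * y = y * m 0 0 := fun y => by
    simpa [ph_def, mul_apply, d1, d2] using ent (e _ ⟨(0, y), rfl⟩) 1 0
  have g : m 1 1 = m 0 0 := by simpa using f 1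
  have z := central ha fun y => g ▸ f y
  refine ⟨(m 0 0).re, Matrix.ext fun i j => ?_⟩
  rw [algebraMap_matrix_apply]
  fin_cases i <;> fin_cases j
  exacts [z, d1, d2, g.trans z]

/-- The algebra with involution. -/
def ks [CharZero k] (ha : a ≠ 0) (h : c ≠ 0)
    (an : ∀ x y : ℍ[k,a,0,b], algebraMap k _ c * (star x * x) + star y * y = 0 → x = 0 ∧ y = 0) :
    KS k (MQ a b) where
  st := st a b c
  W := LinearMap.range (ph a b c)
  mul := st_mul h
  one := by rw [st_def, conjTranspose_one, Matrix.mul_one, hc_mul h]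
  two := st_st h
  sym w m := ((mem_ph h).1 m).1
  sq := by
    rintro _ ⟨⟨x, y⟩, rfl⟩
    exact ⟨_, ph_sq x y⟩
  dim := by
    rw [LinearMap.finrank_range_of_inj (f := ph a b c) fun p q e => Prod.ext
      (QuaternionAlgebra.coe_injective (ent e 0 0)) (ent e 1 0), finrank_prod,
      finrank_self, QuaternionAlgebra.finrank_eq_four]
  act g h1 h2 w m := by
    obtain ⟨e, t⟩ := (mem_ph h).1 m
    refine (mem_ph h).2 ⟨?_, ?_⟩
    · rw [st_mul h, st_mul h, st_st h, e, Matrix.mul_assoc]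
    · rw [tr_comm, ← Matrix.mul_assoc, h1, Matrix.one_mul, t]
  ani := st_ani h an
  cen := ph_cen ha

theorem ani (h : GD) : ANI := fun k _ _ a b c ha _ hc an => by
  have e : (ks ha hc an).G = UH (Hc a 0 b c) := Subgroup.ext fun g => by
    change st a b c g.1 * g.1 = 1 ↔ g.1ᴴ * Hc a 0 b c * g.1 = Hc a 0 b c
    rw [st_def, Matrix.mul_assoc, Matrix.mul_assoc, ← Matrix.mul_assoc g.1ᴴ]
    refine ⟨fun u => ?_, fun u => by rw [u, hc_mul hc]⟩
    have := congrArg (Hc a 0 b c * ·) u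
    simpa only [← Matrix.mul_assoc, hc_mul' hc, Matrix.one_mul, Matrix.mul_one] using this
  exact e ▸ KS.psimple (h k _ _)

end Vale.Agent.P011UGB7
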